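import Vale.Agent.P141.H170.RowC

/-!
# P141, line (A): the pair of a raw scalar slot against a capped moving stack

`core` is the estimate for families with caps on all cells; `pairACr : H505.Sk1.PairACr 200000`.
-/

namespace Vale.Agent.P141.H441.PairAC

open Finset Matrix Vale.Agent.P141.PL Vale.Agent.P141.PL.H103 Vale.Agent.P141.H103
open Vale.Agent.P141.H505 Vale.Agent.P141.H336 Vale.Agent.P141.H389
open Vale.Agent.P141.H505.Sk1 (Num NumA Wgt PairACr Ch W3 eT eM dTh)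
open Vale.Agent.P141.H170.Win
open Vale.Agent.P141.H92 (StO dh dls_nonneg gcs_le rad_symm')
open Vale.Agent.P141.H585.PairCh (phs dls)
open Vale.Agent.P075 (Ix val rad GX phi res)
open Vale.Agent.P141.PL.H588 (hd)

noncomputable section

open scoped Classical

variable {κ : Type} [Fintype κ] [DecidableEq κ]

/-- **The pair, all cells, general weight.** -/
theorem core {k₀ N : ℕ} (hkN : k₀ ≤ N) {R S T : ℤ} {pl : ℕ → ℤ} (hpl : H588.Pl pl) {τ s : ℝ}
    (hs : 0 < s) (hτ : 0 ≤ τ) {W Nn M Nm : ℤ → ℕ → ℤ → Matrix κ κ ℝ} (wf : Wf N W Nn M Nm)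
    (A : ℕ → ℤ → ℤ → ℝ) (c : ℕ → ℤ → ℤ → κ → ℝ) (J : ℕ)
    {P Q Bo : ℕ → ℤ → ℤ → Prop}
    (hP : ∀ k, k₀ < k → k ≤ N → ∀ z m, ¬ P k z m → ∀ y ∈ iv k m, A (k + 1) z y = A k z y)
    (hQ : ∀ k, k₀ < k → k ≤ N → ∀ x m, ¬ Q k x m → ∀ y ∈ iv k m, c (k + 1) x y = c k x y)
    (cA0 : ∀ k a, k₀ < k → k ≤ a → a ≤ N → ∀ n m,
      (τ • (1 : Matrix (Ix k) (Ix k) ℝ) - PA (A k) k a n m).PosSemidef)
    (cA1 : ∀ k a, k₀ ≤ k → k ≤ a → a ≤ N → ∀ n m,
      (τ • (1 : Matrix (Ix k) (Ix k) ℝ) - PA (A (k + 1)) k a n m).PosSemidef)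
    (cC : ∀ k a n m, k₀ ≤ k → k + 1 ≤ a → a ≤ N →
      ((4 ^ J * s) • (1 : Matrix (Ix (k + 1)) (Ix (k + 1)) ℝ)
        - (2 : ℝ) • XW (c (k + 1)) W (k + 1) a n m).PosSemidef)
    (hB : ∀ k z m, P k z m → Bo k (ix k z) m) {E EA : ℝ}
    (hEA : eA N R S (A (k₀ + 1)) ≤ EA)
    (hDA : ∑ k ∈ Ico k₀ N, eA N R S (rst (P (k + 1)) (k + 1) (A (k + 2))) ≤ EA)
    (hE : H293.ms N T S (c (k₀ + 1)) (fun x m => W x k₀ m) k₀ ≤ E)
    (hV : ∑ k ∈ Ico k₀ N, H293.ms N T S (c (k + 1))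
      (fun x m => M x (k + 1) m * (W x (k + 1) m)⁻¹ * M x (k + 1) m) (k + 1) ≤ E)
    (hD : ∑ k ∈ Ico k₀ N, H293.ms N T S (c (k + 1)) (fun x m => Nm x (k + 1) m) (k + 1) ≤ E)
    (hDC : ∑ k ∈ Ico k₀ N, eC N T S (rst (Q (k + 1)) (k + 1) (c (k + 2))) W (k + 1) ≤ E)
    (hM : ∑ k ∈ Ico k₀ N, cAC N T S (c (k + 1)) W M Nm k ≤ 2 * E)
    (hCR : ∑ k ∈ Ico k₀ N, GW N R S T (k + 1) (pl (k + 1)) (fun n n' m =>
      if Bo (k + 1) n m then (XW (c (k + 2)) W (k + 1) (k + 1) n' m).trace else 0) ≤ E) :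
    ∑ k ∈ Ico k₀ N, GW N R S T (k + 1) (pl (k + 1))
        (gAC (A (k + 1)) (c (k + 1)) W s k (k + 1) (k + 1))
      ≤ 25000 * ((J : ℝ) + 1) ^ 3 * (√(τ * EA) * √(s * E) + τ * E) := by
  have nE : 0 ≤ E := (H293.ms_nonneg N T S (c (k₀ + 1)) k₀
    fun x m => (wf.pd x k₀ m).posSemidef).trans hE
  have nEA : 0 ≤ EA := (eA_nonneg _ _ _ _).trans hEA
  have hμ : 0 < s⁻¹ := inv_pos.2 hs
  set j3 : ℝ := ((J : ℝ) + 1) ^ 3 with hj3
  have j0 : (1 : ℝ) ≤ (J : ℝ) + 1 := by linarith [Nat.cast_nonneg (α := ℝ) J]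
  have j1 : (J : ℝ) + 1 ≤ j3 := by
    rw [hj3]
    exact le_self_pow₀ j0 (by norm_num)
  have j2 : (1 : ℝ) ≤ j3 := j0.trans j1
  have hT := realT (P := P) (Q := Q) wf hkN (R := R) (S := S) (T := T) hpl hs hτ A c hP hQ
    (fun k h1 h2 n m => cA1 k (k + 1) h1 (by omega) h2 n m)
    (fun k h1 h2 n m => cA0 k k h1 le_rfl h2 n m)
  have hTV := TV_rawT hkN hτ hP cA0 cA1 hEA hDA
  have hBT := BT_le (c := c) (Bo := Bo) wf (k₀ := k₀) (R := R) (S := S) (T := T) (pl := pl) hs hτ A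
    hB (fun k h1 h2 n m => cA1 k k h1.le le_rfl h2 n m) hDA hCR
  -- the stack
  have hcT : ∑ k ∈ Ico k₀ N, H38.T.cT J N T S W M Nm Q c k ≤ 66 * j3 * E := by
    have e3 : ∀ k, H293.ms N T S (H293.af Q c (k + 1)) (fun x m => W x (k + 1) m) (k + 1)
        = eC N T S (rst (Q (k + 1)) (k + 1) (c (k + 2))) W (k + 1) := fun k => rfl
    have e : ∑ k ∈ Ico k₀ N, H38.T.cT J N T S W M Nm Q c k
        = 64 * j3 * ∑ k ∈ Ico k₀ N, H293.ms N T S (c (k + 1))
            (fun x m => M x (k + 1) m * (W x (k + 1) m)⁻¹ * M x (k + 1) m) (k + 1)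
          + ((J : ℝ) + 1) * ∑ k ∈ Ico k₀ N,
            H293.ms N T S (c (k + 1)) (fun x m => Nm x (k + 1) m) (k + 1)
          + ((J : ℝ) + 1) * ∑ k ∈ Ico k₀ N,
            eC N T S (rst (Q (k + 1)) (k + 1) (c (k + 2))) W (k + 1) := by
      rw [Finset.mul_sum, Finset.mul_sum, Finset.mul_sum, ← Finset.sum_add_distrib,
        ← Finset.sum_add_distrib]
      refine Finset.sum_congr rfl fun k _ => ?_
      rw [← e3]
      rfl
    rw [e]
    have a1 := mul_le_mul_of_nonneg_left hV (by positivity : 0 ≤ 64 * j3)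
    have a2 := mul_le_mul_of_nonneg_left hD (by positivity : 0 ≤ (J : ℝ) + 1)
    have a3 := mul_le_mul_of_nonneg_left hDC (by positivity : 0 ≤ (J : ℝ) + 1)
    have a4 := mul_le_mul_of_nonneg_right j1 nE
    linarith
  have st := H38.T.stkTR (Q := Q) (c := c) hkN T S wf
    (fun k x m h1 h2 hq y hy => (hQ (k + 1) (by omega) (by omega) x m hq y hy).symm) hμ J
    (fun k a n m h1 h2 h3 => by
      have h4 : (0 : ℝ) < 4 ^ J := by positivity
      have h := (cC k a n m h1 h2 h3).smul (by positivity : 0 ≤ s⁻¹ / 4 ^ J)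
      have e : s⁻¹ / 4 ^ J * (4 ^ J * s) = 1 := by field_simp
      rw [smul_sub, smul_smul, e, one_smul] at h
      exact h)
    (H := E) (Qm := 66 * j3 * E) hE hcT
  have so : StO (ι := fun k => Ix k) (fun _ _ _ _ => 0) (fun _ _ _ _ => 0) :=
    ⟨fun _ _ _ _ => rfl, fun _ _ _ _ => rfl⟩
  have est : EstR N J (fun _ => E) (fun _ => 0) (fun _ => 66 * j3 * E) ≤ 268 * (j3 * E) := by
    have := EstR_const (N := N) (J := J) nE le_rfl (by positivity : 0 ≤ 66 * j3 * E)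
    have a4 := mul_le_mul_of_nonneg_right j1 nE
    linarith
  have es : (s⁻¹ / 4 ^ 0)⁻¹ = s := by rw [pow_zero, div_one, inv_inv]
  have j00 : 0 ≤ J := Nat.zero_le J
  have nEst : 0 ≤ EstR N J (fun _ => E) (fun _ => 0) (fun _ => 66 * j3 * E) := st.Est_nonneg
  have nD : 0 ≤ j3 * E := by positivity
  -- outer defects
  have d1 : ∑ k ∈ Ico k₀ N, GW N R S T (k + 1) (pl (k + 1)) (fun _ n' m =>
      dh s (XW (c (k + 1)) W k k) n' m) ≤ 2144 * (s * (j3 * E)) := by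
    refine (sum_le_sum fun k _ => H92.GW_right N R S T (k + 1) (pl (k + 1)) fun n m => ?_).trans ?_
    · exact add_nonneg (dls_nonneg hs (XW_psd wf _ _ _ _ _) (XW_psd wf _ _ _ _ _))
        (dls_nonneg hs (XW_psd wf _ _ _ _ _) (XW_psd wf _ _ _ _ _))
    · have h := dh_sumR st so (j := 0) j00
      rw [es] at h
      have h2 := mul_le_mul_of_nonneg_left est (by positivity : 0 ≤ 8 * s)
      have h3 : ∑ k ∈ Ico k₀ N, bsum N T S (k + 1) (k + 1) (dh s (XW (c (k + 1)) W k k))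
          ≤ 8 * s * EstR N J (fun _ => E) (fun _ => 0) (fun _ => 66 * j3 * E) := h
      linarith
  -- middle defects
  have d2 : ∑ k ∈ Ico k₀ N, GW N R S T (k + 1) (pl (k + 1)) (fun _ n' m =>
      gC (c (k + 1)) W s k (k + 1) n' m) ≤ 1072 * (s * (j3 * E)) := by
    refine (sum_le_sum fun k _ => H92.GW_right N R S T (k + 1) (pl (k + 1)) fun n m => ?_).trans ?_
    · have hp := phs_psd hs (XW_psd wf (c (k + 1)) (k + 1) (k + 1) n m)
      exact P075.trace_mul_nonneg (V := rad (Ix k) * phs s (XWs (c (k + 1)) W k (k + 1) n m)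
        * rad (Ix k)) hp (P075.psd_conj_symm hp (rad_symm' k))
    · have h0 := st.mid_diag 0
      simp only [Nat.sub_zero, Nat.add_zero] at h0
      have key : ∀ k ∈ Ico k₀ N, bsum N T S (k + 1) (k + 1)
          (fun n' m => gC (c (k + 1)) W s k (k + 1) n' m)
          ≤ 4 * s * ((2 : ℝ) ^ (k + 1) * 2 ^ (k + 1) * ∑ m ∈ iv (N - (k + 1)) S,
            ∑ n ∈ iv (N - (k + 1)) T,
              (1 / 4) * SC s⁻¹ J (rad (Ix k)) (XWs (c (k + 1)) W k (k + 1) n m)) := by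
        intro k _
        refine (bsum_mono (g := fun n m => 4 * s * ((1 / 4) * SC s⁻¹ J (rad (Ix k))
          (XWs (c (k + 1)) W k (k + 1) n m))) fun n m => ?_).trans (le_of_eq ?_)
        · have g1 := gcs_le (X := XWs (c (k + 1)) W k (k + 1) n m) (r := rad (Ix k))
            (XW_psd wf (c (k + 1)) (k + 1) (k + 1) n m) (rad_symm' k) hμ (J := J) (j := 0) j00
          rw [es] at g1
          unfold gC
          linarith
        · rw [bsum_smul]
          rfl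
      refine (sum_le_sum key).trans ?_
      rw [← mul_sum]
      have hX := st.X_le
      have h1 := mul_le_mul_of_nonneg_left ((h0.trans hX).trans est)
        (by positivity : (0 : ℝ) ≤ 4 * s)
      linarith
  -- plane energies
  have t2 := st.TV_stack (j := 0) j00
  rw [es] at t2
  have t2' : TV k₀ N T S (fun k a n m => phs s (XW (c (k + 1)) W k a n m))
      ≤ 107200 * (s * (j3 * E)) := by
    have h2 := mul_le_mul_of_nonneg_left est (by positivity : 0 ≤ 400 * s)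
    have h3 : TV k₀ N T S (fun k a n m => phs s (XW (c (k + 1)) W k a n m))
      ≤ 400 * s * EstR N J (fun _ => E) (fun _ => 0) (fun _ => 66 * j3 * E) := t2
    linarith
  have z2 : 0 ≤ TV k₀ N T S (fun k a n m => phs s (XW (c (k + 1)) W k a n m)) :=
    TV_nonneg fun k a n m => H336.phs_symm (XW_psd wf _ _ _ _ _) hs
  have z1 : 0 ≤ TV k₀ N R S (fun k => PA (A (k + 1)) k) :=
    TV_nonneg fun k a n m => PA_symm (A (k + 1)) k a n m
  have t3 : √(TV k₀ N R S (fun k => PA (A (k + 1)) k)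
      * TV k₀ N T S (fun k a n m => phs s (XW (c (k + 1)) W k a n m)))
      ≤ 5747 * j3 * (√(τ * EA) * √(s * E)) := by
    have h1 := mul_le_mul hTV t2' z2 (z1.trans hTV)
    refine (Real.sqrt_le_sqrt h1).trans ?_
    have nA : 0 ≤ τ * EA := mul_nonneg hτ nEA
    have nC : 0 ≤ s * E := mul_nonneg hs.le nE
    rw [← Real.sqrt_mul nA]
    have e3 : 308 * (τ * EA) * (107200 * (s * (j3 * E)))
        = 33017600 * j3 * (τ * EA * (s * E)) := by ring
    have e4 : √((5747 * j3) ^ 2 * (τ * EA * (s * E))) = 5747 * j3 * √(τ * EA * (s * E)) := by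
      rw [Real.sqrt_mul (by positivity), Real.sqrt_sq (by positivity)]
    rw [← e4, e3]
    refine Real.sqrt_le_sqrt (mul_le_mul_of_nonneg_right ?_ (mul_nonneg nA nC))
    nlinarith
  have b1 : τ * s⁻¹ / 2 * (2144 * (s * (j3 * E))) = 1072 * (τ * (j3 * E)) := by
    field_simp
    ring
  have b2 : τ * s⁻¹ / 2 * (1072 * (s * (j3 * E))) = 536 * (τ * (j3 * E)) := by
    field_simp
    ring
  have c1 := mul_le_mul_of_nonneg_left d1 (by positivity : 0 ≤ τ * s⁻¹ / 2)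
  have c2 := mul_le_mul_of_nonneg_left d2 (by positivity : 0 ≤ τ * s⁻¹ / 2)
  have c3 := mul_le_mul_of_nonneg_left hM (by positivity : 0 ≤ 2 * τ)
  have c4 := mul_le_mul_of_nonneg_left hDC hτ
  have n1 : 0 ≤ √(τ * EA) * √(s * E) := by positivity
  have n2 : 0 ≤ τ * E := mul_nonneg hτ nE
  have n3 : √(τ * EA) * √(s * E) ≤ j3 * (√(τ * EA) * √(s * E)) := le_mul_of_one_le_left n1 j2
  have n4 : τ * E ≤ τ * (j3 * E) := by
    refine mul_le_mul_of_nonneg_left ?_ hτ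
    exact le_mul_of_one_le_left nE j2
  have n5 : 0 ≤ j3 * (√(τ * EA) * √(s * E)) := mul_nonneg (by positivity) n1
  have n6 : 0 ≤ τ * (j3 * E) := mul_nonneg hτ nD
  have e6 : 25000 * j3 * (√(τ * EA) * √(s * E) + τ * E)
      = 25000 * (j3 * (√(τ * EA) * √(s * E))) + 25000 * (τ * (j3 * E)) := by ring
  have e7 : 5747 * j3 * (√(τ * EA) * √(s * E)) = 5747 * (j3 * (√(τ * EA) * √(s * E))) := by ring
  rw [e6]
  rw [e7] at t3
  linarith

/-- index shift; the last term vanishes, the others are nonnegative -/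
theorem shift_le {k₀ N : ℕ} {f : ℕ → ℝ} (h0 : ∀ k, 0 ≤ f k) (hf : f N = 0) :
    ∑ k ∈ Ico k₀ N, f (k + 1) ≤ ∑ k ∈ Ico k₀ N, f k := by
  rcases le_total N k₀ with h | h
  · rw [Finset.Ico_eq_empty_of_le h]
    simp
  rw [Finset.sum_Ico_add' f k₀ N 1]
  have e : ∑ k ∈ Ico (k₀ + 1) (N + 1), f k ≤ ∑ k ∈ Ico k₀ (N + 1), f k :=
    Finset.sum_le_sum_of_subset_of_nonneg (Ico_subset_Ico (Nat.le_succ _) le_rfl)
      fun k _ _ => h0 k
  rw [Finset.sum_Ico_succ_top h, hf, add_zero] at e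
  exact e

theorem Ch_top {α : Type} [Zero α] (N : ℕ) (R S : ℤ) (F : ℕ → ℤ → ℤ → α) (n m : ℤ) :
    ¬ Ch (cut N R S F) N n m := by
  rintro ⟨x, _, z, _, hne⟩
  refine hne ?_
  unfold cut
  rw [min_eq_right (Nat.le_succ N), min_self]

theorem half_ix (k : ℕ) (z : ℤ) : ix k z / 2 = ix (k + 1) z := by
  unfold ix
  rw [pow_succ, Int.ediv_ediv_of_nonneg (by positivity)]

/-- the first part of the variation -/
theorem quad_M {X L : Matrix κ κ ℝ} (hL : Lᵀ = L) (v : κ → ℝ) :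
    v ⬝ᵥ (L * X⁻¹ * L) *ᵥ v = (L *ᵥ v) ⬝ᵥ X⁻¹ *ᵥ (L *ᵥ v) := by
  rw [← mulVec_mulVec, ← mulVec_mulVec, dotProduct_mulVec v L, ← mulVec_transpose, hL]

/-- **The leaf `PairACr`.** -/
theorem pairACr : PairACr 200000 := by
  intro κ _ _ k₀ N r1 r2 r3 pl β A b c Th Nn M Nm E EA cC t2 x2 J hkN hpl hW hN hA hx2 ht2 hJ
  rcases hkN.lt_or_eq with hlt | heq
  swap
  · subst heq
    have hE0 : 0 ≤ E := by
      have := hN.dr
      rwa [Finset.Ico_self, Finset.sum_empty] at this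
    rw [Finset.Ico_self, Finset.sum_empty]
    positivity
  rw [← lhs_cut (k₀ := k₀) (N := N) (r1 := r1) (r2 := r2) (r3 := r3) (pl := pl) (A := A) (c := c)
    (Th := Th) x2]
  have hN' := Num.cut hN
  have hA' := NumA.cut hA
  have wf := hW.wf
  have sW : ∀ x k m, (Th x k m)ᵀ = Th x k m := fun x k m => P075.psd_isSymm (wf.pd x k m).posSemidef
  set A' := cut N r2 r3 A with hA'd
  set c' := cut N r1 r3 c with hc'd
  -- parts of the variation
  have p1 : ∀ k x z, 0 ≤ (M x (k + 1) (ix (k + 1) z) *ᵥ c' (k + 1) x z) ⬝ᵥ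
      (Th x (k + 1) (ix (k + 1) z))⁻¹ *ᵥ (M x (k + 1) (ix (k + 1) z) *ᵥ c' (k + 1) x z) := by
    intro k x z
    have := (wf.pd x (k + 1) (ix (k + 1) z)).inv.posSemidef.dotProduct_mulVec_nonneg
      (M x (k + 1) (ix (k + 1) z) *ᵥ c' (k + 1) x z)
    rwa [star_trivial] at this
  have p2 : ∀ k x z, 0 ≤ (dTh Th k x z *ᵥ c' (k + 1) x z) ⬝ᵥ
      (Th x k (ix k z))⁻¹ *ᵥ (dTh Th k x z *ᵥ c' (k + 1) x z) := by
    intro k x z
    have := (wf.pd x k (ix k z)).inv.posSemidef.dotProduct_mulVec_nonneg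
      (dTh Th k x z *ᵥ c' (k + 1) x z)
    rwa [star_trivial] at this
  have sdT : ∀ k x z, (dTh Th k x z)ᵀ = dTh Th k x z := by
    intro k x z
    unfold dTh
    rw [transpose_sub, sW, sW]
  have eE : ∀ k, H293.ms N r1 r3 (c' (k₀ + 1)) (fun x m => Th x k m) k
      = ∑ x ∈ iv N r1, ∑ z ∈ iv N r3, eT (c' (k₀ + 1)) Th k x z := fun k => rfl
  have hE : H293.ms N r1 r3 (c' (k₀ + 1)) (fun x m => Th x k₀ m) k₀ ≤ E := by
    rw [eE]
    exact hN'.en k₀ le_rfl hkN (k₀ + 1) (Nat.le_succ _) le_rfl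
  have hV : ∑ k ∈ Ico k₀ N, H293.ms N r1 r3 (c' (k + 1))
      (fun x m => M x (k + 1) m * (Th x (k + 1) m)⁻¹ * M x (k + 1) m) (k + 1) ≤ E := by
    refine le_trans (Finset.sum_le_sum fun k _ => Finset.sum_le_sum fun x _ =>
      Finset.sum_le_sum fun z _ => ?_) hN'.var
    unfold eM
    rw [quad_M (wf.sM x (k + 1) (ix (k + 1) z))]
    have := p2 k x z
    linarith
  have hD : ∑ k ∈ Ico k₀ N, H293.ms N r1 r3 (c' (k + 1)) (fun x m => Nm x (k + 1) m) (k + 1)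
      ≤ E := hN'.dr
  have hM : ∑ k ∈ Ico k₀ N, cAC N r1 r3 (c' (k + 1)) Th M Nm k ≤ 2 * E := by
    have h1 : ∑ k ∈ Ico k₀ N, cAC N r1 r3 (c' (k + 1)) Th M Nm k
        ≤ ∑ k ∈ Ico k₀ N, ∑ x ∈ iv N r1, ∑ z ∈ iv N r3, (eM (c' (k + 1)) Th M k x z
          + c' (k + 1) x z ⬝ᵥ Nm x (k + 1) (ix (k + 1) z) *ᵥ c' (k + 1) x z) := by
      refine Finset.sum_le_sum fun k _ => Finset.sum_le_sum fun x _ =>
        Finset.sum_le_sum fun z _ => ?_
      have e1 : dW Th x k (ix k z) = dTh Th k x z := by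
        unfold dW dTh
        rw [half_ix]
      rw [e1, quad_M (wf.sM x (k + 1) (ix (k + 1) z)), quad_M (sdT k x z)]
      have h2 := p2 k x z
      have h3 := (wf.pNm x (k + 1) (ix (k + 1) z)).dotProduct_mulVec_nonneg (c' (k + 1) x z)
      rw [star_trivial] at h3
      unfold eM
      linarith
    refine h1.trans ?_
    simp only [Finset.sum_add_distrib]
    have h4 := hN'.var
    have h5 := hN'.dr
    linarith
  have hDC : ∑ k ∈ Ico k₀ N, eC N r1 r3
      (rst (fun x m => Ch c' (k + 1) (ix (k + 1) x) m) (k + 1) (c' (k + 2))) Th (k + 1) ≤ E := by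
    refine le_trans ?_ (born_eT hN')
    refine shift_le (f := fun k => ∑ x ∈ iv N r1, ∑ z ∈ iv N r3,
      eT (rst (fun x m => Ch c' k (ix k x) m) k (c' (k + 1))) Th k x z) (fun k => ?_) ?_
    · refine Finset.sum_nonneg fun x _ => Finset.sum_nonneg fun z _ => ?_
      have := (wf.pd x k (ix k z)).posSemidef.dotProduct_mulVec_nonneg
        (rst (fun x m => Ch c' k (ix k x) m) k (c' (k + 1)) x z)
      rwa [star_trivial] at this
    · refine Finset.sum_eq_zero fun x _ => Finset.sum_eq_zero fun z _ => ?_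
      unfold eT rst
      rw [if_neg (Ch_top N r1 r3 c _ _), zero_dotProduct]
  have hDA : ∑ k ∈ Ico k₀ N, eA N r2 r3
      (rst (fun y m => Ch A' (k + 1) (ix (k + 1) y) m) (k + 1) (A' (k + 2))) ≤ EA := by
    refine le_trans ?_ (born_eA hA')
    refine shift_le (f := fun k => eA N r2 r3
      (rst (fun y m => Ch A' k (ix k y) m) k (A' (k + 1)))) (fun k => eA_nonneg _ _ _ _) ?_
    refine Finset.sum_eq_zero fun x _ => Finset.sum_eq_zero fun z _ => ?_
    unfold rst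
    rw [if_neg (Ch_top N r2 r3 A _ _)]
    norm_num
  have hCR : ∑ k ∈ Ico k₀ N, GW N r2 r3 r1 (k + 1) (pl (k + 1)) (fun n n' m =>
      if Ch A' (k + 1) n m then (XW (c' (k + 2)) Th (k + 1) (k + 1) n' m).trace else 0) ≤ E := by
    have n0 : ∀ k n m, 0 ≤ (XW (c' (k + 1)) Th k k n m).trace := fun k n m =>
      (XW_psd wf _ _ _ _ _).trace_nonneg
    refine le_trans (shift_le (f := fun k => GW N r2 r3 r1 k (pl k) (fun n n' m =>
      if Ch A' k n m then (XW (c' (k + 1)) Th k k n' m).trace else 0)) (fun k => ?_) ?_) ?_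
    · exact H103.GW_nonneg _ _ _ _ _ _ fun n n' m => by
        split_ifs
        · exact n0 k n' m
        · exact le_rfl
    · have e : (fun n n' m => if Ch A' N n m then (XW (c' (N + 1)) Th N N n' m).trace else 0)
          = fun _ _ _ => (0 : ℝ) := by
        funext n n' m
        rw [if_neg (Ch_top N r2 r3 A _ _)]
      show GW N r2 r3 r1 N (pl N) (fun n n' m =>
        if Ch A' N n m then (XW (c' (N + 1)) Th N N n' m).trace else 0) = 0
      rw [e]
      unfold GW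
      simp
    · refine le_trans (Finset.sum_le_sum fun k _ => GW_mo fun n n' m => ?_) hN'.cross
      by_cases h : Ch A' k n m
      · rw [if_pos h, if_pos (Or.inl h)]
        exact le_rfl
      · rw [if_neg h]
        split_ifs
        · exact n0 k n' m
        · exact le_rfl
  have cC' : ∀ k a n m, k₀ ≤ k → k + 1 ≤ a → a ≤ N →
      ((4 ^ (J + 1) * x2) • (1 : Matrix (Ix (k + 1)) (Ix (k + 1)) ℝ)
        - (2 : ℝ) • XW (c' (k + 1)) Th (k + 1) a n m).PosSemidef := by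
    intro k a n m h1 h2 h3
    have h := (cap_all hN (k := k + 1) (a := a) (by omega) (by omega) (by omega) h3 (j := k + 1)
      (by rw [min_eq_left h2]) (by omega) n m).smul (by norm_num : (0 : ℝ) ≤ 2)
    have h4 : (((4 ^ (J + 1) * x2) - 2 * cC ^ 2) • (1 : Matrix (Ix (k + 1)) (Ix (k + 1)) ℝ)
        ).PosSemidef := PosSemidef.one.smul (by
      rw [pow_succ]
      have : 0 ≤ (4 : ℝ) ^ J * x2 := by positivity
      nlinarith)
    have h5 := h.add h4
    rw [smul_sub, smul_smul] at h5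
    have e : (2 * cC ^ 2) • (1 : Matrix (Ix (k + 1)) (Ix (k + 1)) ℝ)
        - (2 : ℝ) • W3 (c' (k + 1)) Th (k + 1) a n m
        + ((4 ^ (J + 1) * x2) - 2 * cC ^ 2) • (1 : Matrix (Ix (k + 1)) (Ix (k + 1)) ℝ)
        = (4 ^ (J + 1) * x2) • (1 : Matrix (Ix (k + 1)) (Ix (k + 1)) ℝ)
          - (2 : ℝ) • XW (c' (k + 1)) Th (k + 1) a n m := by
      rw [sub_smul]
      unfold W3 XW
      abel
    rw [← e]
    exact h5
  have key := core hkN (R := r2) (S := r3) (T := r1) hpl (s := x2) (τ := t2) hx2 ht2.le wf A' c'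
    (J + 1) (P := fun k y m => Ch A' k (ix k y) m) (Q := fun k x m => Ch c' k (ix k x) m)
    (Bo := fun k n m => Ch A' k n m) (E := E) (EA := EA)
    (fun k _ _ y m h z hz => row_eq h hz) (fun k _ _ x m h z hz => row_eq h hz)
    (fun k a h1 h2 h3 n m => capA_all ht2.le hA h1.le h2 h3 le_rfl (Nat.le_succ k) n m)
    (fun k a h1 h2 h3 n m => capA_all ht2.le hA h1 h2 h3 (Nat.le_succ k) le_rfl n m)
    cC' (fun k z m h => h)
    (hA'.en (k₀ + 1) hlt) hDA hE hV hD hDC hM hCR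
  have hE0 : 0 ≤ E := (H293.ms_nonneg N r1 r3 (c' (k₀ + 1)) k₀
    fun x m => (wf.pd x k₀ m).posSemidef).trans hE
  have hEA0 : 0 ≤ EA := (eA_nonneg N r2 r3 (A' (k₀ + 1))).trans (hA'.en (k₀ + 1) hlt)
  refine key.trans ?_
  have e1 : √(t2 * EA) * √(x2 * E) = √(x2 * E * (t2 * EA)) := by
    rw [mul_comm, ← Real.sqrt_mul (by positivity)]
  rw [e1]
  have nJ : (0 : ℝ) ≤ J := Nat.cast_nonneg J
  have e2 : 25000 * (((J + 1 : ℕ) : ℝ) + 1) ^ 3 ≤ 200000 * ((J : ℝ) + 1) ^ 3 := by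
    have e3 : (((J + 1 : ℕ) : ℝ) + 1) ≤ 2 * ((J : ℝ) + 1) := by
      push_cast
      linarith
    have e4 := pow_le_pow_left₀ (by positivity) e3 3
    rw [mul_pow] at e4
    linarith
  exact mul_le_mul_of_nonneg_right e2 (by positivity)

end

end Vale.Agent.P141.H441.PairAC
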